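import Claimed.Agent.R256.Act.E2H.Dc
import Claimed.Agent.R256.Act.E2H.Cd

/-!
# Row 256, section Act, block E2 HYBRID, second line (folder E2J): RARITY TRANSPORT MODULO THE DISCARDED ROWS      (helper15; prefix `ae2j_`)

`ae2j_spb` = the statement of the contract `ae2h_spb` (Act/E2H/Mis.lean), VERBATIM, proved from `ae2d_cost`, `ae2d_lab` (Act/E2H/Dc.lean, helper262), `ae2c_names` (Act/E2H/CdDoc.lean, helper156), `nm_pred_end`, `NmRep.rep2`, `D.Spg`.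
* `ae2j_list`  the final label lists `(C, S, k̄)` of the selected successor (text of helper262's `ae2d_list`, copied because its file did not build after the change of vocabulary).
* `ae2j_cell`  `tcell (s^h) χ = nmCell s (χ h)`;      `ae2j_bad`  `e2hBad ⟹ e2dBad` for `cs = e2hW`, `ka = ae2Ka (e2hZ)`.
* `ae2j_num`   numerology: `21 c / 64 ≤ c / 2`, `c = κ0 (De - j)`.
-/

set_option autoImplicit false

namespace Claimed.Agent.R256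

open Claimed.Agent.R255
open Claimed.Agent.R255.FLaw (pair)
open Filter Topology
open Classical

noncomputable section

/-- **the final label lists `(C, S, k̄)` of the selected successor of every predecessor** -/
theorem ae2j_list (π : SfPar) (hπ : π.Valid) (C0 τ κ0 Λ : ℝ) (p : Ae2P) (hp : p.Ok π Λ) (hDe : p.De = 1) (K0 e R acc : ℝ) (hacc : 0 < acc) :
    ∃ t0 : ℝ, 0 < t0 ∧ ∀ D : SfDoc, D.Fine π C0 τ κ0 t0 → nmX π D t0 → NmRep D π (p.rt π) K0 e →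
    ∀ (dsp : ℝ → NmNm → NmNm → ItDsp) (N Λc : ℝ), 0 ≤ N → 0 ≤ Λc →
      (D.P 1).NVal (fun _ => True) ((ae2Tan D π p dsp).ltS R) (pair ((ae2Tan D π p dsp).O 40) (ae2Tan D π p dsp).Cs) N →
    ∀ (V : D.Row 1 → Prop) (sel : D.Row (D.gt p.j) → D.Row 1), (∀ ω, V ω → (D.P 1).p ω ≠ 0) →
      (∀ ρ ω, V ω → D.Conn (D.gt p.j) 1 ρ ω → V (sel ρ) ∧ D.Conn (D.gt p.j) 1 ρ (sel ρ)) →
      (∀ x : ℝ, x = p.a ∨ x = p.a + 40 * p.h → ∀ y : NmNm, ∃ T : Finset NmNm, (T.card : ℝ) ≤ Λc ∧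
        ∀ ρ ω ω', V ω → V ω' → D.Conn (D.gt p.j) 1 ρ ω → D.Conn (D.gt p.j) 1 ρ ω' →
          D.nm π (ae2Q π p.De) x (π.u p.De) ω = y → D.nm π (ae2Q π p.De) x (π.u p.De) ω' ∈ T) →
    ∀ lam : SfTest, ∃ L : Finset ((NmNm × LttS) × ℝ), (L.card : ℝ) ≤ D.s ^ (-acc) * (Λc * Λc) * max K0 0 * N ∧
      ∀ ρ ω, D.Conn (D.gt p.j) 1 ρ ω → V ω → D.lab 1 ω = lam →
        (((ae2Tan D π p dsp).Cs (sel ρ), (ae2Tan D π p dsp).ltS R (sel ρ)), D.kbar π (nmDsStr π p.De) (sel ρ)) ∈ L := by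
  have hh := hp.h0
  have ha0 : 0 < p.a := hp.root.ha.1
  have hga : 400 * p.h ≤ p.j - p.a := hp.hgap.trans (min_le_left _ _)
  have hb1 : π.b1 p.De = π.b2 p.De + π.u p.De := by
    unfold SfPar.b1 SfPar.b2 SfPar.u
    ring
  have hl : ∀ a : ℝ, a ≤ p.De → (ae2Q π p.De).l π a (π.u (ae2Q π p.De).ds.De) ≤ π.b1 (ae2Q π p.De).ds.De := by
    intro a ha
    show π.b2 p.De + 1 * (a - p.De) + π.u p.De ≤ π.b1 p.De
    rw [hb1]
    linarith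
  have hwn : ∀ a : ℝ, a < p.De → (ae2Q π p.De).w π a (π.u (ae2Q π p.De).ds.De) < 0 := by
    intro a ha
    show π.b2 p.De + 1 * (a - p.De) + 2 * π.u p.De < 0
    unfold SfPar.b2 SfPar.u
    rw [hDe] at ha ⊢
    linarith
  obtain ⟨t1, ht1, g1⟩ := nm_pred_end π hπ C0 τ κ0 (ae2Q π p.De) hp.root.q rfl rfl p.a
    ⟨ha0, by show p.a < p.De; linarith [hp.haj, hp.hjD]⟩ (hl _ (by linarith [hp.haj, hp.hjD]))
    (fun _ => hwn _ (by linarith [hp.haj, hp.hjD])) (acc / 2) (by positivity)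
  obtain ⟨t2, ht2, g2⟩ := nm_pred_end π hπ C0 τ κ0 (ae2Q π p.De) hp.root.q rfl rfl (p.a + 40 * p.h)
    ⟨by linarith, by show p.a + 40 * p.h < p.De; linarith [hp.haj, hp.hjD]⟩ (hl _ (by linarith [hp.haj, hp.hjD]))
    (fun _ => hwn _ (by linarith [hp.haj, hp.hjD])) (acc / 2) (by positivity)
  refine ⟨min t1 t2, lt_min ht1 ht2, ?_⟩
  intro D hD hX hRep dsp N Λc hN0 hΛ0 hval V sel hV hsel hcd lam
  have hcore := hD.ok.core
  have hs := hcore.hs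
  have hgt : D.gt p.De = 1 := by rw [hDe]; exact nm_gt_self D hcore.gate.1
  have hmet : ∀ ω : D.Row 1, D.lab 1 ω = lam → D.Met (D.gt (ae2Q π p.De).ds.De) lam ω := by
    intro ω h
    show D.Met (D.gt p.De) lam ω
    unfold SfDoc.Met
    rw [if_pos hgt]
    exact h
  obtain ⟨E, hE⟩ : ∃ E : D.Row (D.gt p.j) × D.Row 1 → Prop, E = fun x => D.Conn (D.gt p.j) 1 x.1 x.2 ∧ V x.2 ∧ D.lab 1 x.2 = lam := ⟨_, rfl⟩
  have hE1 : ∀ x, E x → D.Conn (D.gt p.j) 1 x.1 x.2 := fun x h => by rw [hE] at h; exact h.1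
  have hE2 : ∀ x, E x → V x.2 := fun x h => by rw [hE] at h; exact h.2.1
  have hE3 : ∀ x, E x → D.lab 1 x.2 = lam := fun x h => by rw [hE] at h; exact h.2.2
  have hpa : 0 < D.s ^ (-(acc / 2)) := Real.rpow_pos_of_pos hs.1 _
  have L1 : ∃ S : Finset NmNm, (S.card : ℝ) ≤ D.s ^ (-(acc / 2)) ∧ ∀ x, E x → D.nm π (ae2Q π p.De) p.a (π.u p.De) x.2 ∈ S := by
    obtain ⟨S, hS, hm⟩ := g1 D (nm_me_fine_mono hD (min_le_left _ _)) (nm_me_x_mono hs (min_le_left _ _) hX) lam ()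
    exact ⟨S, hS, fun x h => hm x.2 (hmet _ (hE3 x h)) trivial rfl⟩
  have L2 := ae2_ml_step E (fun x => D.nm π (ae2Q π p.De) p.a (π.u p.De) x.2) (fun x => D.nm π (ae2Q π p.De) (p.a + 40 * p.h) (π.u p.De) x.2) _ _ hpa.le L1
    (fun x₀ _ => by
      obtain ⟨S, hS, hm⟩ := g2 D (nm_me_fine_mono hD (min_le_right _ _)) (nm_me_x_mono hs (min_le_right _ _) hX) lam ()
      exact ⟨S, hS, fun x h _ => hm x.2 (hmet _ (hE3 x h)) trivial rfl⟩)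
  have L3 := ae2_ml_step E _ (fun x => D.nm π (ae2Q π p.De) p.a (π.u p.De) (sel x.1)) _ Λc hΛ0 L2
    (fun x₀ _ => by
      obtain ⟨T, hT, hm⟩ := hcd p.a (Or.inl rfl) (D.nm π (ae2Q π p.De) p.a (π.u p.De) x₀.2)
      refine ⟨T, hT, fun x h hA => ?_⟩
      obtain ⟨s1, s2⟩ := hsel x.1 x.2 (hE2 x h) (hE1 x h)
      exact hm x.1 x.2 (sel x.1) (hE2 x h) s1 (hE1 x h) s2 (congrArg Prod.fst hA))
  have L4 := ae2_ml_step E _ (fun x => D.nm π (ae2Q π p.De) (p.a + 40 * p.h) (π.u p.De) (sel x.1)) _ Λc hΛ0 L3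
    (fun x₀ _ => by
      obtain ⟨T, hT, hm⟩ := hcd (p.a + 40 * p.h) (Or.inr rfl) (D.nm π (ae2Q π p.De) (p.a + 40 * p.h) (π.u p.De) x₀.2)
      refine ⟨T, hT, fun x h hA => ?_⟩
      obtain ⟨s1, s2⟩ := hsel x.1 x.2 (hE2 x h) (hE1 x h)
      exact hm x.1 x.2 (sel x.1) (hE2 x h) s1 (hE1 x h) s2 (congrArg (fun y => y.1.2) hA))
  have L5 := ae2_ml_step E _ (fun x => D.cs π (p.rt π) (sel x.1)) _ (max K0 0) (le_max_right _ _) L4
    (fun x₀ _ => by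
      obtain ⟨S, hS, hm⟩ := hRep.rep2 (sel x₀.1)
      refine ⟨S, hS.trans (le_max_left _ _), fun x h hA => ?_⟩
      obtain ⟨s1, -⟩ := hsel x.1 x.2 (hE2 x h) (hE1 x h)
      exact hm (sel x.1) (hV _ s1) trivial (congrArg (fun y => y.1.2) hA))
  have L6 := ae2_ml_step E _ (fun x => (ae2Tan D π p dsp).ltS R (sel x.1)) _ N hN0 L5
    (fun x₀ _ => by
      obtain ⟨S, hS, hm⟩ := hval (sel x₀.1)
      refine ⟨S, hS, fun x h hA => ?_⟩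
      obtain ⟨s1, -⟩ := hsel x.1 x.2 (hE2 x h) (hE1 x h)
      refine hm (sel x.1) (hV _ s1) trivial ?_
      have e1 : D.nm π (ae2Q π p.De) (p.a + 40 * p.h) (π.u p.De) (sel x.1) = D.nm π (ae2Q π p.De) (p.a + 40 * p.h) (π.u p.De) (sel x₀.1) :=
        congrArg (fun y => y.1.2) hA
      have e2 : D.cs π (p.rt π) (sel x.1) = D.cs π (p.rt π) (sel x₀.1) := congrArg Prod.snd hA
      show ((D.nm π (ae2Q π p.De) (p.a + 40 * p.h) (π.u p.De) (sel x.1), D.cs π (p.rt π) (sel x.1)), D.cs π (p.rt π) (sel x.1))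
        = ((D.nm π (ae2Q π p.De) (p.a + 40 * p.h) (π.u p.De) (sel x₀.1), D.cs π (p.rt π) (sel x₀.1)), D.cs π (p.rt π) (sel x₀.1))
      rw [e1, e2])
  obtain ⟨S, hS, hm⟩ := L6
  refine ⟨S.image fun y => ((y.1.2, y.2), nmVal D.s (π.b2 p.De - p.De) y.1.1.1.2.kb), ?_, ?_⟩
  · have h1 : ((S.image fun y => ((y.1.2, y.2), nmVal D.s (π.b2 p.De - p.De) y.1.1.1.2.kb)).card : ℝ) ≤ S.card := by
      exact_mod_cast Finset.card_image_le
    refine h1.trans (hS.trans (le_of_eq ?_))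
    have e : D.s ^ (-acc) = D.s ^ (-(acc / 2)) * D.s ^ (-(acc / 2)) := by
      rw [← Real.rpow_add hs.1]
      congr 1
      ring
    rw [e]
    ring
  · intro ρ ω h1 h2 h3
    have hEx : E (ρ, ω) := by rw [hE]; exact ⟨h1, h2, h3⟩
    refine Finset.mem_image.2 ⟨_, hm (ρ, ω) hEx, ?_⟩
    have hk : D.kbar π (nmDsStr π p.De) (sel ρ) = nmVal D.s (π.b2 p.De - p.De) (D.raw π (nmDsStr π p.De) (sel ρ)).kb := by
      rw [nm_kbar_val]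
      rfl
    rw [hk]
    rfl

/-- the two families of dyadic cells agree -/
theorem ae2j_cell (s h χ x : ℝ) (hs : 0 < s ∧ s < 1) (hh : 0 < h) (hχ : 0 < χ) : tcell (s ^ h) χ x = nmCell s (χ * h) x := by
  unfold tcell nmCell tlev nmLev
  have e1 : Real.logb 2 (1 / s ^ h) = h * Real.logb 2 (1 / s) := by
    rw [one_div, one_div, ← Real.inv_rpow hs.1.le, Real.logb_rpow_eq_mul_logb_of_pos (by have := hs.1; positivity)]
  have hlog : 0 < Real.logb 2 (1 / s) := Real.logb_pos (by norm_num) (by rw [one_div]; exact (one_lt_inv₀ hs.1).2 hs.2)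
  rw [e1]
  have e2 : χ * (h * Real.logb 2 (1 / s)) = χ * h * Real.logb 2 (1 / s) := by ring
  rw [e2]
  have e3 : ((⌈χ * h * Real.logb 2 (1 / s)⌉₊ : ℕ) : ℤ) = ⌈χ * h * Real.logb 2 (1 / s)⌉ := Int.natCast_ceil_eq_ceil (by positivity)
  rw [← e3, zpow_natCast]

/-- a discarded row of the contract is a discarded row of the abstract core -/
theorem ae2j_bad (D : SfDoc) (π : SfPar) (p : Ae2P) (dsp : ℝ → NmNm → NmNm → ItDsp) (χ R τd : ℝ) (hs : 0 < D.s ∧ D.s < 1) (hh : 0 < p.h) (hχ : 0 < χ)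
    (ρ : D.Row (D.gt p.j)) (h : D.e2hBad π p dsp χ R τd ρ) :
    D.e2dBad p (D.e2hW π p dsp R) (fun ρ => ae2Ka (D.s ^ p.h) (D.e2hZ π p ρ)) χ τd ρ := by
  unfold SfDoc.e2dBad ae2dBad
  have e1 : (D.P (D.gt p.j)).fib (D.e2hW π p dsp R) ρ = (D.P (D.gt p.j)).pr (fun ρ' => D.e2hW π p dsp R ρ' = D.e2hW π p dsp R ρ) := rfl
  have e2 : (D.P (D.gt p.j)).fib (pair (fun ρ => nmCell D.s (χ * p.h) (ae2Ka (D.s ^ p.h) (D.e2hZ π p ρ))) (D.e2hW π p dsp R)) ρ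
      = (D.P (D.gt p.j)).pr (fun ρ' => D.e2hW π p dsp R ρ' = D.e2hW π p dsp R ρ ∧ D.e2hBin π p χ ρ' = D.e2hBin π p χ ρ) := by
    unfold FLaw.fib pair
    refine ent_pr_congr _ fun ρ' _ => ?_
    unfold SfDoc.e2hBin
    rw [Prod.mk.injEq, ae2j_cell D.s p.h χ _ hs hh hχ, ae2j_cell D.s p.h χ _ hs hh hχ]
    exact and_comm
  rw [e1, e2]
  exact h.2

/-- the numerology -/
theorem ae2j_num (s c t K N τd x : ℝ) (s0 : 0 < s) (s1 : s < 1) (ht : 0 < t) (h2t : 2 * t ≤ c / 64) (hK0 : 0 ≤ K)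
    (hK : 64 * (K + 1) ≤ s ^ (-(c / 64))) (hN0 : 0 ≤ N) (hN : N ≤ s ^ (-(c / 8))) (hτd : τd ≤ c / 8) (hx : c / 2 ≤ x) :
    s ^ (-(c / 64)) * (s ^ (-(c / 64)) * s ^ (-(c / 64))) * K * N * s ^ (-τd) * 8 * (6 * s ^ (-(2 * t)) + 2) ≤ s ^ (-x) := by
  have hc : 0 < c := by linarith
  obtain ⟨P, hP⟩ : ∃ P : ℝ, P = s ^ (-(c / 64)) := ⟨_, rfl⟩
  obtain ⟨Q, hQ⟩ : ∃ Q : ℝ, Q = s ^ (-(c / 8)) := ⟨_, rfl⟩
  obtain ⟨X, hX⟩ : ∃ X : ℝ, X = s ^ (-(2 * t)) := ⟨_, rfl⟩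
  obtain ⟨Y, hY⟩ : ∃ Y : ℝ, Y = s ^ (-τd) := ⟨_, rfl⟩
  have hP0 : 0 < P := by rw [hP]; exact Real.rpow_pos_of_pos s0 _
  have hQ0 : 0 < Q := by rw [hQ]; exact Real.rpow_pos_of_pos s0 _
  have hY0 : 0 < Y := by rw [hY]; exact Real.rpow_pos_of_pos s0 _
  have hX1 : 1 ≤ X := by rw [hX]; exact Real.one_le_rpow_of_pos_of_le_one_of_nonpos s0 s1.le (by linarith)
  have hXP : X ≤ P := by rw [hX, hP]; exact lay_rpow_anti s0 s1 (by linarith)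
  have hYQ : Y ≤ Q := by rw [hY, hQ]; exact lay_rpow_anti s0 s1 (by linarith)
  have fin : P * (P * P) * (P * P) * (Q * Q) = s ^ (-(21 * c / 64)) := by
    rw [hP, hQ]
    simp only [← Real.rpow_add s0]
    congr 1
    ring
  rw [← hP] at hK
  rw [← hQ] at hN
  rw [← hP, ← hX, ← hY]
  have b1 : K * 8 * (6 * X + 2) ≤ P * P := by
    have a1 : 6 * X + 2 ≤ 8 * X := by linarith
    calc K * 8 * (6 * X + 2) ≤ K * 8 * (8 * X) := mul_le_mul_of_nonneg_left a1 (by positivity)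
      _ = 64 * K * X := by ring
      _ ≤ 64 * (K + 1) * X := mul_le_mul_of_nonneg_right (by linarith) (by linarith)
      _ ≤ P * P := mul_le_mul hK hXP (by linarith) hP0.le
  have b2 : N * Y ≤ Q * Q := mul_le_mul hN hYQ hY0.le hQ0.le
  calc P * (P * P) * K * N * Y * 8 * (6 * X + 2) = P * (P * P) * (K * 8 * (6 * X + 2)) * (N * Y) := by ring
    _ ≤ P * (P * P) * (P * P) * (Q * Q) :=
        mul_le_mul (mul_le_mul_of_nonneg_left b1 (by positivity)) b2 (mul_nonneg hN0 hY0.le) (by positivity)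
    _ = s ^ (-(21 * c / 64)) := fin
    _ ≤ s ^ (-x) := lay_rpow_anti s0 s1 (by linarith)

/-- **rarity transport modulo the discarded rows** = the contract `ae2h_spb`, verbatim -/
theorem ae2j_spb (π : SfPar) (hπ : π.Valid) (h1 : π.c2 = 1) (h2 : π.q < 1) (hc : π.hyb = true) (C0 κ0 Λ : ℝ) (hκ0 : 0 < κ0) (p : Ae2P) (hp : p.Ok π Λ) (hD1 : p.De = 1)
    (χ : ℝ) (hχ : 0 < χ) (hχ1 : χ ≤ 1) (K0 e R c0 : ℝ) (hc0 : 0 < c0) :
    ∃ t0 : ℝ, 0 < t0 ∧ ∀ D : SfDoc, D.Fine π C0 (χ * p.h / (4 * (p.De - p.j))) κ0 t0 → nmX π D t0 → D.Spg π (χ * p.h / (4 * (p.De - p.j))) κ0 t0 →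
      NmRep D π (p.rt π) K0 e → ∀ (dsp : ℝ → NmNm → NmNm → ItDsp) (N : ℝ), 1 ≤ N → N ≤ D.s ^ (-(κ0 * (p.De - p.j) / 8)) →
        (D.P 1).NVal (fun _ => True) ((ae2Tan D π p dsp).ltS R) (pair ((ae2Tan D π p dsp).O 40) (ae2Tan D π p dsp).Cs) N →
      ∀ τd : ℝ, 0 < τd → τd ≤ κ0 * (p.De - p.j) / 8 → D.E2hSpb (D.gt p.j) (D.e2hBad π p dsp χ R τd) (D.s ^ (-c0)) (1 / 4) := by
  have hΔ : 0 < p.De - p.j := by linarith [hp.hjD]
  have hh := hp.h0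
  have ha0 : 0 < p.a := hp.root.ha.1
  have hj1' : p.j < 1 := hD1 ▸ hp.hjD
  have hga : 400 * p.h ≤ p.j - p.a := hp.hgap.trans (min_le_left _ _)
  have hw : 0 < χ * p.h / 2 := by positivity
  have hwh : χ * p.h / 2 ≤ p.h := by nlinarith
  have hwχ : χ * p.h / 2 < χ * p.h := by linarith
  have hτ : χ * p.h / 2 / (2 * (p.De - p.j)) = χ * p.h / (4 * (p.De - p.j)) := by
    field_simp
    ring
  obtain ⟨τc, hτc⟩ : ∃ τc : ℝ, τc = χ * p.h / (4 * (p.De - p.j)) := ⟨_, rfl⟩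
  obtain ⟨c, hcdef⟩ : ∃ c : ℝ, c = κ0 * (p.De - p.j) := ⟨_, rfl⟩
  have hcpos : 0 < c := by rw [hcdef]; positivity
  rw [← hτc, ← hcdef]
  rw [← hτc] at hτ
  have hu : π.u 1 = 0 := by simp [SfPar.u]
  have hqJ : π.q - π.J < 1 := by
    have := hπ.pl hc
    have := hπ.J0
    linarith
  have hnm : ∀ y : ℝ, 0 ≤ y → y < p.j → NmA π C0 τc κ0 fun acc D => ∃ L : NmNm → Finset NmNm, (∀ n, ((L n).card : ℝ) ≤ D.s ^ (-acc)) ∧
      ∀ (ρ : D.Row (D.gt p.j)) (ω ω' : D.Row 1), D.Conn (D.gt p.j) 1 ρ ω → D.Conn (D.gt p.j) 1 ρ ω' →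
        D.nm π (ae2Q π 1) y (π.u 1) ω' ∈ L (D.nm π (ae2Q π 1) y (π.u 1) ω) := by
    intro y hy0 hyj
    refine ae2c_names π hπ h1 h2 C0 τc κ0 p.j y (π.u 1) ⟨hy0, hyj, hj1'⟩ ?_ ?_
    · simp only [ae2Q, nmDsStr, NmQ.w, NmDs.b, SfPar.b2, hu]
      linarith
    · simp only [ae2Q, nmDsStr, NmQ.l, NmDs.b, SfPar.b2, hu]
      refine lt_min ?_ (by linarith)
      unfold SfPar.b1
      nlinarith
  obtain ⟨t1, ht1, g1⟩ := ae2d_cost π h1 C0 τc κ0 Λ p hp hD1 (χ * p.h / 2) hw hwh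
  obtain ⟨t2, ht2, g2⟩ := ae2d_lab π C0 τc κ0 Λ p hp hD1 χ (χ * p.h / 2) hw hwχ hχ1
  obtain ⟨t3, ht3, g3⟩ := ae2j_list π hπ C0 τc κ0 Λ p hp hD1 K0 e R (c / 64) (by positivity)
  obtain ⟨t4, ht4, g4⟩ := hnm p.a ha0.le hp.haj (c / 64) (by positivity)
  obtain ⟨t5, ht5, g5⟩ := hnm (p.a + 40 * p.h) (by linarith) (by linarith) (c / 64) (by positivity)
  obtain ⟨t6, ht6, g6⟩ := ae2_th_aux_small (64 * (max K0 0 + 1)) (c / 64) (by have := le_max_right K0 0; positivity) (by positivity)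
  obtain ⟨t7, ht7, g7⟩ := ae2_th_aux_small 4 (c / 2) (by norm_num) (by positivity)
  obtain ⟨t, htdef⟩ : ∃ t : ℝ, t = min (min (min t1 t2) (min t3 t4)) (min (min t5 t6) (min (min t7 ((p.De - p.j) / 4)) (min (c / 128) c0))) := ⟨_, rfl⟩
  have htpos : 0 < t := by
    rw [htdef]
    exact lt_min (lt_min (lt_min ht1 ht2) (lt_min ht3 ht4)) (lt_min (lt_min ht5 ht6) (lt_min (lt_min ht7 (by positivity)) (lt_min (by positivity) hc0)))
  have htt1 : t ≤ t1 := htdef ▸ ((min_le_left _ _).trans (min_le_left _ _)).trans (min_le_left _ _)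
  have htt2 : t ≤ t2 := htdef ▸ ((min_le_left _ _).trans (min_le_left _ _)).trans (min_le_right _ _)
  have htt3 : t ≤ t3 := htdef ▸ ((min_le_left _ _).trans (min_le_right _ _)).trans (min_le_left _ _)
  have htt4 : t ≤ t4 := htdef ▸ ((min_le_left _ _).trans (min_le_right _ _)).trans (min_le_right _ _)
  have htt5 : t ≤ t5 := htdef ▸ ((min_le_right _ _).trans (min_le_left _ _)).trans (min_le_left _ _)
  have htt6 : t ≤ t6 := htdef ▸ ((min_le_right _ _).trans (min_le_left _ _)).trans (min_le_right _ _)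
  have htt7 : t ≤ t7 := htdef ▸ (((min_le_right _ _).trans (min_le_right _ _)).trans (min_le_left _ _)).trans (min_le_left _ _)
  have httΔ : t ≤ (p.De - p.j) / 4 := htdef ▸ (((min_le_right _ _).trans (min_le_right _ _)).trans (min_le_left _ _)).trans (min_le_right _ _)
  have httc : t ≤ c / 128 := htdef ▸ (((min_le_right _ _).trans (min_le_right _ _)).trans (min_le_right _ _)).trans (min_le_left _ _)
  have httc0 : t ≤ c0 := htdef ▸ (((min_le_right _ _).trans (min_le_right _ _)).trans (min_le_right _ _)).trans (min_le_right _ _)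
  refine ⟨t, htpos, ?_⟩
  intro D hD hX hSpg hRep dsp N hN1 hN hval τd hτd0 hτd U S hpred
  have hcore := hD.ok.core
  have hs := hcore.hs
  have hne : D.G.Nonempty := ⟨1, hcore.gate.1⟩
  have hj0 : 0 ≤ p.j := by linarith [hp.haj]
  have hj1 : p.j ≤ 1 := hj1'.le
  have hi := nm_gt_mem D hne p.j
  have ni := nm_gt_near hD hj0 hj1
  rw [abs_le] at ni
  have hgap : (p.De - p.j) / 2 ≤ 1 - D.gt p.j := by rw [hD1] at httΔ ⊢; linarith [ni.1, ni.2]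
  have hi1 : D.gt p.j < 1 := by linarith
  have hκgap : c / 2 ≤ κ0 * (1 - D.gt p.j) := by rw [hcdef]; nlinarith
  have hδ0 : 0 < D.s ^ p.h := Real.rpow_pos_of_pos hs.1 _
  obtain ⟨c1, c2⟩ := g1 t htpos htt1 D hD
  -- the observables
  obtain ⟨cs, hcs⟩ : ∃ cs : D.Row (D.gt p.j) → NmNm × LttS, cs = D.e2hW π p dsp R := ⟨_, rfl⟩
  obtain ⟨kb, hkb⟩ : ∃ kb : D.Row (D.gt p.j) → ℝ, kb = fun ρ => D.kbar π (nmDsStr π p.De) (D.e2hSel (D.gt p.j) ρ) := ⟨_, rfl⟩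
  obtain ⟨ka, hkadef⟩ : ∃ ka : D.Row (D.gt p.j) → ℝ, ka = fun ρ => ae2Ka (D.s ^ p.h) (D.e2hZ π p ρ) := ⟨_, rfl⟩
  obtain ⟨U', hU'⟩ : ∃ U' : D.Row 1 → Prop, U' = fun ω => U ω ∧ (D.P 1).p ω ≠ 0 := ⟨_, rfl⟩
  have hka : ∀ ρ, |ka ρ - ((D.lab _ ρ).K - kb ρ) / D.s ^ (π.b2 p.De - p.De)| ≤ (D.s ^ p.h) ^ (30 : ℝ) := by
    intro ρ
    have := tl_abs_sub_trep hδ0 30 (D.e2K π p.De (D.lab (D.gt p.j) ρ) (D.e2hSel (D.gt p.j) ρ))
    rw [abs_sub_comm] at this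
    rw [hkadef, hkb]
    exact this
  obtain ⟨Nt, hNt⟩ : ∃ Nt : ℝ, Nt = D.s ^ (-(c / 64)) * (D.s ^ (-(c / 64)) * D.s ^ (-(c / 64))) * max K0 0 * N := ⟨_, rfl⟩
  have hpc : 0 < D.s ^ (-(c / 64)) := Real.rpow_pos_of_pos hs.1 _
  have hL : ∀ lam : SfTest, ∃ L : Finset ((NmNm × LttS) × ℝ), (L.card : ℝ) ≤ Nt ∧
      ∀ ρ ω, D.Conn (D.gt p.j) 1 ρ ω → U' ω → D.lab 1 ω = lam → (D.P (D.gt p.j)).p ρ ≠ 0 → (cs ρ, kb ρ) ∈ L := by
    intro lam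
    obtain ⟨La, hLa, hma⟩ := g4 D (nm_me_fine_mono hD htt4) (nm_me_x_mono hs htt4 hX)
    obtain ⟨Lb, hLb, hmb⟩ := g5 D (nm_me_fine_mono hD htt5) (nm_me_x_mono hs htt5 hX)
    obtain ⟨L, l1, l2⟩ := g3 D (nm_me_fine_mono hD htt3) (nm_me_x_mono hs htt3 hX) hRep dsp N (D.s ^ (-(c / 64))) (by linarith) hpc.le hval
      (fun ω => (D.P 1).p ω ≠ 0) (D.e2hSel (D.gt p.j)) (fun _ h => h)
      (fun ρ ω hv hcn => ⟨ae2h_sel_ch D _ ρ, ae2h_sel_conn D _ ρ ⟨ω, hcn, hv⟩⟩)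
      (by
        intro x hx y
        rw [hD1]
        rcases hx with rfl | rfl
        · exact ⟨La y, hLa y, fun ρ ω ω' _ _ a1 a2 a3 => a3 ▸ hma ρ ω ω' a1 a2⟩
        · exact ⟨Lb y, hLb y, fun ρ ω ω' _ _ a1 a2 a3 => a3 ▸ hmb ρ ω ω' a1 a2⟩) lam
    refine ⟨L, by rw [hNt]; exact l1, fun ρ ω a1 a2 a3 _ => ?_⟩
    rw [hU'] at a2
    rw [hcs, hkb]
    exact l2 ρ ω a1 a2.2 a3
  have key := hSpg (D.gt p.j) hi 1 hcore.gate.1 hi1 (by linarith) (Set.range (D.e2dGrp π p (χ * p.h / 2)))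
    (fun b ρ => (D.P (D.gt p.j)).p ρ ≠ 0 ∧ D.e2dBad p cs ka χ τd ρ ∧ D.e2dGrp π p (χ * p.h / 2) ρ = b.1)
    (fun b => ae2Sg D.s π p (χ * p.h / 2) b.1) U' S ?_ ?_ ?_ ?_ ?_ ?_
  · have e1 : (D.P 1).pr U' = (D.P 1).pr U := by
      rw [hU']
      exact ent_pr_congr _ fun ω hω => ⟨fun h => h.1, fun h => ⟨h, hω⟩⟩
    rw [e1] at key
    refine key.trans (add_le_add (mul_le_mul_of_nonneg_right (lay_rpow_anti hs.1 hs.2 (by linarith))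
      (Real.rpow_nonneg (ent_pr_nonneg _ _) _)) ?_)
    have h4 := g7 D.s hs.1 (hD.sm.trans htt7)
    have h5 : D.s ^ (κ0 * (1 - D.gt p.j)) ≤ D.s ^ (c / 2) := lay_rpow_anti hs.1 hs.2 hκgap
    have h6 : D.s ^ (c / 2) = (D.s ^ (-(c / 2)))⁻¹ := by rw [Real.rpow_neg hs.1.le, inv_inv]
    have h7 : (D.s ^ (-(c / 2)))⁻¹ ≤ (4 : ℝ)⁻¹ := inv_anti₀ (by norm_num) h4
    rw [h6] at h5
    refine h5.trans (h7.trans (le_of_eq ?_))
    norm_num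
  · intro b b' ρ h h'
    exact Subtype.ext (h.2.2.symm.trans h'.2.2)
  · intro ω hω ρ hcn
    rw [hU'] at hω
    rcases hpred ω hω.1 ρ ⟨hcn, hω.2⟩ with h | h
    · exact Or.inl h
    · refine Or.inr ⟨⟨_, ρ, rfl⟩, h.1, ?_, rfl⟩
      rw [hcs, hkadef]
      exact ae2j_bad D π p dsp χ R τd hs hh hχ ρ h
  · intro lam
    have hb := g2 t htt2 D hD _ cs kb ka τd Nt U' hka lam (hL lam)
    have hnum := ae2j_num D.s c t (max K0 0) N τd (κ0 * (1 - D.gt p.j)) hs.1 hs.2 htpos (by linarith) (le_max_right _ _)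
      (g6 D.s hs.1 (hD.sm.trans htt6)) (by linarith) hN hτd hκgap
    rw [← hNt] at hnum
    refine le_trans ?_ (hb.trans hnum)
    rw [← Set.ncard_image_of_injective _ Subtype.val_injective]
    have hfin : ({b | ∃ ρ ω, ((D.P (D.gt p.j)).p ρ ≠ 0 ∧ D.e2dBad p cs ka χ τd ρ ∧ D.e2dGrp π p (χ * p.h / 2) ρ = b) ∧
        D.Conn (D.gt p.j) 1 ρ ω ∧ U' ω ∧ D.lab 1 ω = lam} : Set (ℝ × ℤ × ℤ)).Finite := by
      refine (Set.finite_range (D.e2dGrp π p (χ * p.h / 2))).subset ?_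
      rintro b ⟨ρ, ω, ⟨-, -, rfl⟩, -⟩
      exact ⟨ρ, rfl⟩
    have := Set.ncard_le_ncard (s := Subtype.val '' {b : Set.range (D.e2dGrp π p (χ * p.h / 2)) | ∃ ρ ρ',
        ((D.P (D.gt p.j)).p ρ ≠ 0 ∧ D.e2dBad p cs ka χ τd ρ ∧ D.e2dGrp π p (χ * p.h / 2) ρ = b.1) ∧
        D.Conn (D.gt p.j) 1 ρ ρ' ∧ U' ρ' ∧ D.lab 1 ρ' = lam}) (by
      rintro _ ⟨b, ⟨ρ, ω, h, h'⟩, rfl⟩
      exact ⟨ρ, ω, h, h'⟩) hfin
    exact_mod_cast this
  · rintro ⟨_, ρ, rfl⟩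
    exact c2 ρ
  · intro _ b ρ ω hb hcn _
    have := c1 ρ ω hcn
    rw [hτ, hb.2.2] at this
    exact this
  · intro h0
    rw [h1] at h0
    norm_num at h0

end

end Claimed.Agent.R256
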